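import Vale.Agent.P058.Kite

namespace Vale.Agent.Results.P058.Characterization

open Vale.Agent.P058

theorem result :
    (∀ (d : ℕ) (A : Finset (EuclideanSpace ℝ (Fin d))), A.Nonempty →
      (IsRamsey A ↔ TensorCriterion A)) ∧
    (∀ (d : ℕ) (A : Finset (EuclideanSpace ℝ (Fin d))), A.Nonempty →
      IsSubtransitive A → IsRamsey A) ∧
    (∀ a : ℝ, -1 < a → a < 1 → IsRamsey (kite a)) ∧
    (∀ a : ℝ, -1 < a → a < 1 → Transcendental ℚ a → ¬ IsSubtransitive (kite a)) ∧
    (∃ (d : ℕ) (A : Finset (EuclideanSpace ℝ (Fin d))), A.Nonempty ∧ IsRamsey A ∧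
      ¬ IsSubtransitive A) := by
  refine ⟨fun d A hA => ⟨fun h => (crit_iff A).2 (crit_of_ramsey A hA h),
      fun h => ramsey_of_crit A ((crit_iff A).1 h)⟩,
    fun d A hA h => ramsey_of_crit A (crit_of_sub A hA h),
    fun a h1 h2 => ramsey_of_crit _ (kite_crit h1 h2),
    fun a h1 h2 ha => kite_not_sub ha h1 h2, ?_⟩
  obtain ⟨a, ha, h1, h2⟩ := exists_transc
  exact ⟨2, kite a, by simp [kite], ramsey_of_crit _ (kite_crit h1 h2), kite_not_sub ha h1 h2⟩

end Vale.Agent.Results.P058.Characterization
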